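import Vale.Agent.P103.MathlibUsed

/-!
# P103: the statement of Shub's entropy conjecture for C^1 maps
-/

namespace Vale.Agent.P103

open Filter Topology CategoryTheory AlgebraicTopology
open scoped Manifold ContDiff TensorProduct

/-- `d_n(x,y) = max_{0 ≤ j < n} d(f^j x, f^j y)`. -/
noncomputable def dn {M : Type} [MetricSpace M] (f : M → M) (n : ℕ) (x y : M) : ℝ :=
  ⨆ j : Fin n, dist (f^[j] x) (f^[j] y)

/-- `s_f(n,ε)`: the largest cardinality of a set whose distinct points satisfy `d_n(x,y) > ε`. -/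
noncomputable def sepCard {M : Type} [MetricSpace M] (f : M → M) (n : ℕ) (ε : ℝ) : ℕ∞ :=
  ⨆ (E : Finset M) (_ : ∀ x ∈ E, ∀ y ∈ E, x ≠ y → ε < dn f n x y), (E.card : ℕ∞)

/-- `h` is the topological entropy of `f`:
`h = lim_{ε ↓ 0} limsup_n (1/n) log s_f(n,ε)`. -/
def IsTopEntropy {M : Type} [MetricSpace M] (f : M → M) (h : EReal) : Prop :=
  Tendsto (fun ε : ℝ => limsup (fun n : ℕ => ENNReal.log (sepCard f n ε : ENNReal) / (n : EReal))
    atTop) (𝓝[>] 0) (𝓝 h)

/-- The linear map `f_{*k}` induced by `f` on singular homology `H_k(M;ℝ)`. -/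
noncomputable def homologyMap {M : Type} [TopologicalSpace M] (k : ℕ) (f : C(M, M)) :
    Module.End ℝ (((singularHomologyFunctor (ModuleCat.{0} ℝ) k).obj (ModuleCat.of ℝ ℝ)).obj
      (TopCat.of M)) :=
  (((singularHomologyFunctor (ModuleCat.{0} ℝ) k).obj (ModuleCat.of ℝ ℝ)).map
    (TopCat.ofHom f)).hom

/-- The spectral radius `ρ(f_*)`: the largest modulus of a complex eigenvalue of `f_*`
on `⨁_k H_k(M;ℝ)`. -/
noncomputable def rho {M : Type} [TopologicalSpace M] (f : C(M, M)) : ENNReal :=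
  ⨆ (k : ℕ) (l : ℂ)
    (_ : Module.End.HasEigenvalue ((homologyMap k f).baseChange ℂ) l), ENNReal.ofReal ‖l‖

/-- Shub's entropy conjecture for `C^1` maps: `h_top(f) ≥ log ρ(f_*)` for every `C^1` self-map `f`
of a nonempty compact smooth manifold `M` without boundary. -/
def EntropyConjecture : Prop :=
  ∀ (E : Type) [NormedAddCommGroup E] [NormedSpace ℝ E] [FiniteDimensional ℝ E]
    (H : Type) [TopologicalSpace H] (I : ModelWithCorners ℝ E H) [I.Boundaryless]
    (M : Type) [MetricSpace M] [ChartedSpace H M] [IsManifold I ∞ M] [CompactSpace M] [Nonempty M]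
    (f : C(M, M)), ContMDiff I I 1 f →
    ∀ h : EReal, IsTopEntropy f h → ENNReal.log (rho f) ≤ h

end Vale.Agent.P103
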