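import Mathlib.Algebra.Category.ModuleCat.Abelian
import Mathlib.Algebra.Category.ModuleCat.Algebra
import Mathlib.Algebra.Category.ModuleCat.Colimits
import Mathlib.Algebra.GroupWithZero.Action.Pointwise.Finset
import Mathlib.Algebra.Order.Ring.Star
import Mathlib.Algebra.Ring.Action.Pointwise.Finset
import Mathlib.Algebra.Ring.IsFormallyReal
import Mathlib.AlgebraicTopology.SingularHomology.HomotopyInvariance
import Mathlib.Analysis.CStarAlgebra.Module.Constructions
import Mathlib.Analysis.Calculus.Deriv.Prod
import Mathlib.Analysis.Complex.ExponentialBounds
import Mathlib.Analysis.Normed.Module.Connected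
import Mathlib.Analysis.Real.Pi.Bounds
import Mathlib.Analysis.SpecialFunctions.Complex.Circle
import Mathlib.Analysis.SpecialFunctions.Complex.LogDeriv
import Mathlib.Analysis.SpecialFunctions.Log.ENNRealLog
import Mathlib.Analysis.SpecialFunctions.SmoothTransition
import Mathlib.Combinatorics.Quiver.ReflQuiver
import Mathlib.Computability.Reduce
import Mathlib.Data.Int.Star
import Mathlib.Geometry.Manifold.Instances.Sphere
import Mathlib.Geometry.Manifold.Sheaf.Basic
import Mathlib.LinearAlgebra.Eigenspace.Basic
import Mathlib.NumberTheory.Real.GoldenRatio
import Mathlib.Order.CompletePartialOrder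
import Mathlib.RingTheory.Flat.TorsionFree
import Mathlib.RingTheory.SimpleRing.Principal
import Mathlib.RingTheory.TotallySplit
import Mathlib.Tactic
import Mathlib.Topology.UniformSpace.Uniformizable

/-! The part of Mathlib that the development of this folder uses. -/
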